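import Vale.Agent.Lib.P356.helper23.Defs

/-!
# P356 pool job G (second copy, helper11): a spectral polynomial of a Hermitian matrix

For a Hermitian matrix `h` and a complex number `lam` there is a polynomial `p` with
`p(lam) = 1` and `h p(h) = lam p(h)`: the Lagrange product over the other eigenvalues.
The proof diagonalizes `h` by the spectral theorem and evaluates polynomials on diagonal
matrices.
-/

namespace Vale.Agent.Lib.P356.H11

open Matrix
open Vale.Agent.Lib.P356

/-- A polynomial that vanishes at all eigenvalues of a Hermitian matrix annihilates it. -/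
theorem aeval_eq_zero_of_eval {n : Type*} [Fintype n] [DecidableEq n] (h : Matrix n n ℂ)
    (hh : h.IsHermitian) (r : Polynomial ℂ)
    (hr : ∀ i, r.eval ((RCLike.ofReal ∘ hh.eigenvalues : n → ℂ) i) = 0) :
    Polynomial.aeval h r = 0 := by
  have hsp := hh.spectral_theorem
  have h1 : Polynomial.aeval (Matrix.diagonal (RCLike.ofReal ∘ hh.eigenvalues : n → ℂ)) r
      = 0 := by
    have h2 : Polynomial.aeval (Matrix.diagonalAlgHom ℂ (RCLike.ofReal ∘ hh.eigenvalues : n → ℂ)) r
        = Matrix.diagonalAlgHom ℂ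
            (Polynomial.aeval (RCLike.ofReal ∘ hh.eigenvalues : n → ℂ) r) :=
      Polynomial.aeval_algHom_apply (Matrix.diagonalAlgHom ℂ) _ r
    have h3 : Polynomial.aeval (RCLike.ofReal ∘ hh.eigenvalues : n → ℂ) r = 0 := by
      funext i
      rw [Polynomial.aeval_pi_apply₂, Polynomial.coe_aeval_eq_eval]
      exact hr i
    have h4 : (Matrix.diagonalAlgHom ℂ (RCLike.ofReal ∘ hh.eigenvalues : n → ℂ) : Matrix n n ℂ)
        = Matrix.diagonal (RCLike.ofReal ∘ hh.eigenvalues : n → ℂ) := rfl
    rw [← h4, h2, h3, map_zero]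
  have h5 : Polynomial.aeval h r
      = Polynomial.aeval (Unitary.conjStarAlgAut ℂ _ hh.eigenvectorUnitary
          (Matrix.diagonal (RCLike.ofReal ∘ hh.eigenvalues : n → ℂ))) r := by
    rw [← hsp]
  rw [h5, Polynomial.aeval_algHom_apply, h1, map_zero]

theorem exists_spectral_poly {n : Type*} [Fintype n] [DecidableEq n] (h : Matrix n n ℂ)
    (hh : h.IsHermitian) (lam : ℂ) :
    ∃ p : Polynomial ℂ, p.eval lam = 1 ∧
      h * Polynomial.aeval h p = lam • Polynomial.aeval h p := by
  classical
  have key : ∀ (S : Finset ℂ), S = (Finset.univ.image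
      (RCLike.ofReal ∘ hh.eigenvalues : n → ℂ)).erase lam →
      ∃ p : Polynomial ℂ, p.eval lam = 1 ∧
        h * Polynomial.aeval h p = lam • Polynomial.aeval h p := by
    intro S hS
    refine ⟨∏ μ ∈ S, (Polynomial.C (lam - μ)⁻¹ * (Polynomial.X - Polynomial.C μ)), ?_, ?_⟩
    · rw [Polynomial.eval_prod]
      refine Finset.prod_eq_one (fun μ hμ => ?_)
      rw [hS] at hμ
      have hne : lam - μ ≠ 0 := sub_ne_zero.2 (fun e => (Finset.mem_erase.1 hμ).1 e.symm)
      rw [Polynomial.eval_mul, Polynomial.eval_C, Polynomial.eval_sub, Polynomial.eval_X,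
        Polynomial.eval_C]
      exact inv_mul_cancel₀ hne
    · have hr : ∀ i, ((Polynomial.X - Polynomial.C lam) *
          ∏ μ ∈ S, (Polynomial.C (lam - μ)⁻¹ * (Polynomial.X - Polynomial.C μ))).eval
            ((RCLike.ofReal ∘ hh.eigenvalues : n → ℂ) i) = 0 := by
        intro i
        rw [Polynomial.eval_mul, Polynomial.eval_sub, Polynomial.eval_X, Polynomial.eval_C]
        by_cases hi : (RCLike.ofReal ∘ hh.eigenvalues : n → ℂ) i = lam
        · rw [hi, sub_self, zero_mul]
        · have hmem : (RCLike.ofReal ∘ hh.eigenvalues : n → ℂ) i ∈ S := by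
            rw [hS]
            exact Finset.mem_erase.2 ⟨hi, Finset.mem_image.2 ⟨i, Finset.mem_univ i, rfl⟩⟩
          have h0 : (∏ μ ∈ S, (Polynomial.C (lam - μ)⁻¹ *
              (Polynomial.X - Polynomial.C μ))).eval
                ((RCLike.ofReal ∘ hh.eigenvalues : n → ℂ) i) = 0 := by
            rw [Polynomial.eval_prod]
            refine Finset.prod_eq_zero hmem ?_
            rw [Polynomial.eval_mul, Polynomial.eval_C, Polynomial.eval_sub, Polynomial.eval_X,
              Polynomial.eval_C, sub_self, mul_zero]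
          rw [h0, mul_zero]
      have h0 := aeval_eq_zero_of_eval h hh _ hr
      rw [map_mul, map_sub, Polynomial.aeval_X, Polynomial.aeval_C, sub_mul,
        ← Algebra.smul_def] at h0
      exact sub_eq_zero.1 h0
  exact key _ rfl

end Vale.Agent.Lib.P356.H11
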